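import Vale.Agent.P095.All.NonUnital

/-!
# P095: interface of the random matrix lemma
-/

namespace Vale.Agent.P095.All

open scoped ComplexOrder

noncomputable section

/-- `∑ i, c i ⊗ Y i`. -/
def rowMat {A : Type} [NonUnitalCStarAlgebra A] {m L : ℕ}
    (c : Fin m → A) (Y : Fin m → CStarMatrix (Fin L) (Fin L) ℂ) :
    CStarMatrix (Fin L) (Fin L) A :=
  CStarMatrix.ofMatrix fun a b => ∑ i, Y i a b • c i

/-- `z ⊗ 1`. -/
def diagMat {A : Type} [NonUnitalCStarAlgebra A] {L : ℕ} (z : A) : CStarMatrix (Fin L) (Fin L) A :=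
  CStarMatrix.ofMatrix (Matrix.diagonal fun _ => z)

/-- If `∑ cᵢ*cᵢ` is a contraction and `‖∑ cᵢcᵢ*‖ ≤ ε`, then scalar matrices `Y i` with only the
first `N` of `M N` rows nonzero, of norm `O(√M)`, make `S = ∑ cᵢ ⊗ Y i` satisfy
`‖S*S - (∑ cᵢ*cᵢ) ⊗ 1‖ = O(√(M ε))`. -/
def RandomRowTarget : Prop :=
  ∃ K : ℝ, 0 ≤ K ∧ ∀ (A : Type) [NonUnitalCStarAlgebra A], HasCPAP A →
    letI : PartialOrder A := CStarAlgebra.spectralOrder A
    letI : StarOrderedRing A := CStarAlgebra.spectralOrderedRing A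
    ∀ (m M : ℕ) (c : Fin m → A) (ε : ℝ), 0 < M → 0 < ε → (M : ℝ) * ε ≤ 1 →
      ‖∑ i, star (c i) * c i‖ ≤ 1 → ‖∑ i, c i * star (c i)‖ ≤ ε →
      ∃ (N : ℕ) (Y : Fin m → CStarMatrix (Fin (M * N)) (Fin (M * N)) ℂ), 0 < N ∧
        (∀ i, ∀ a b : Fin (M * N), N ≤ (a : ℕ) → Y i a b = 0) ∧ (∀ i, ‖Y i‖ ≤ K * Real.sqrt M) ∧
        ‖star (rowMat c Y) * rowMat c Y - diagMat (∑ i, star (c i) * c i)‖ ≤
          K * Real.sqrt ((M : ℝ) * ε)

end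

end Vale.Agent.P095.All
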