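import Vale.Agent.P095.All.Random.Tensor
import Vale.Agent.P095.Amen.Random.Exist

/-!
# P095: a finite row seen through a completely positive map
-/

namespace Vale.Agent.P095.All

open scoped ComplexOrder Matrix.Norms.L2Operator
open Matrix Vale.Agent.P095.Amen.Random

noncomputable section

variable {A : Type} [NonUnitalCStarAlgebra A]

/-- An element as a matrix of size one. -/
def oneHom (R : Type) [NonUnitalCStarAlgebra R] : R →⋆ₙₐ[ℂ] CStarMatrix (Fin 1) (Fin 1) R where
  toFun x := CStarMatrix.ofMatrix fun _ _ => x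
  map_smul' r x := CStarMatrix.ext fun _ _ => rfl
  map_zero' := CStarMatrix.ext fun _ _ => rfl
  map_add' x y := CStarMatrix.ext fun _ _ => rfl
  map_mul' x y := CStarMatrix.ext fun i j => by
    refine Eq.trans ?_ CStarMatrix.mul_apply.symm
    exact (Fin.sum_univ_one fun _ => x * y).symm
  map_star' x := CStarMatrix.ext fun _ _ => rfl

theorem oneHom_injective (R : Type) [NonUnitalCStarAlgebra R] :
    Function.Injective (oneHom R) := fun _ _ h => congrFun (congrFun h 0) 0

/-- A contraction on all matrix levels is a contraction. -/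
theorem IsCPC.norm_le {B : Type} [NonUnitalCStarAlgebra B] {L : A →ₗ[ℂ] B} (h : IsCPC L) (a : A) :
    ‖L a‖ ≤ ‖a‖ := by
  let _ : PartialOrder A := CStarAlgebra.spectralOrder A
  have _ : StarOrderedRing A := CStarAlgebra.spectralOrderedRing A
  let _ : PartialOrder B := CStarAlgebra.spectralOrder B
  have _ : StarOrderedRing B := CStarAlgebra.spectralOrderedRing B
  let eA := oneHom A
  let eB := oneHom B
  have hA : ‖eA a‖ = ‖a‖ :=
    NonUnitalStarAlgHom.norm_map (oneHom A) (oneHom_injective A) a
  have hB : ‖eB (L a)‖ = ‖L a‖ :=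
    NonUnitalStarAlgHom.norm_map (oneHom B) (oneHom_injective B) (L a)
  rw [← hA, ← hB]
  exact (h 1 (eA a)).2

/-- The Gram matrix of a row, through a completely positive contraction into matrices, is the Gram
matrix of a row of matrices with the same two bounds. -/
theorem exists_matrix_row {m k : ℕ} (ψ : A →ₗ[ℂ] CStarMatrix (Fin k) (Fin k) ℂ) (hψ : IsCPC ψ)
    (c : Fin m → A) {ε : ℝ} (hc : ‖∑ i, star (c i) * c i‖ ≤ 1)
    (hε : ‖∑ i, c i * star (c i)‖ ≤ ε) :
    ∃ d : Fin m → Matrix (Fin m × Fin k) (Fin k) ℂ, ‖colSum d‖ ≤ 1 ∧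
      ‖∑ i, d i * (d i)ᴴ‖ ≤ ε ∧
      ∀ i l x y, ψ (star (c i) * c l) x y = ((d i)ᴴ * d l) x y := by
  rcases Nat.eq_zero_or_pos m with rfl | hm
  · refine ⟨fun i => Fin.elim0 i, ?_, ?_, fun i => Fin.elim0 i⟩
    · simp [colSum]
    · simpa using (norm_nonneg _).trans hε
  let _ : PartialOrder A := CStarAlgebra.spectralOrder A
  have _ : StarOrderedRing A := CStarAlgebra.spectralOrderedRing A
  let r₀ : Fin m := ⟨0, hm⟩
  let y : CStarMatrix (Fin m) (Fin m) A :=
    CStarMatrix.ofMatrix fun r l => if r = r₀ then c l else 0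
  have hy : ∀ r l, y r l = if r = r₀ then c l else 0 := fun r l => rfl
  have hG : ∀ i l, (star y * y : CStarMatrix (Fin m) (Fin m) A) i l = star (c i) * c l := fun i l => by
    rw [CStarMatrix.mul_apply, Finset.sum_eq_single r₀ (fun r _ hr => by
      simp [CStarMatrix.star_apply, hy, hr]) (by simp)]
    simp [CStarMatrix.star_apply, hy]
  obtain ⟨z, hz⟩ := (hψ m (star y * y)).1 ⟨y, rfl⟩
  have hz' : ∀ i l, ψ (star (c i) * c l) = (star z * z : CStarMatrix _ _ _) i l := fun i l => by
    rw [← hz, CStarMatrix.map_apply, hG]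
  let d : Fin m → Matrix (Fin m × Fin k) (Fin k) ℂ :=
    fun l => Matrix.of fun u x => flatHom m k z u (l, x)
  have hd : ∀ i l x x', ψ (star (c i) * c l) x x' = ((d i)ᴴ * d l) x x' := fun i l x x' => by
    rw [hz', show (star z * z : CStarMatrix (Fin m) (Fin m) _) i l x x' =
      flatHom m k (star z * z) (i, x) (l, x') from rfl, map_mul, map_star]
    simp [d, Matrix.mul_apply, Matrix.star_eq_conjTranspose]
  refine ⟨d, ?_, ?_, hd⟩
  · have e : colSum d = (CStarMatrix.ofMatrix.symm (ψ (∑ i, star (c i) * c i))) := by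
      ext x x'
      rw [map_sum]
      simp [colSum, Matrix.sum_apply, ← hd, csum_apply]
    rw [e, ← norm_cstarMatrix_eq]
    exact (hψ.norm_le _).trans hc
  · have e : ∑ i, d i * (d i)ᴴ = flatHom m k z * star (flatHom m k z) := by
      ext u v
      simp [d, Matrix.sum_apply, Matrix.mul_apply, Fintype.sum_prod_type,
        Matrix.star_eq_conjTranspose]
    rw [e, CStarRing.norm_self_mul_star, ← CStarRing.norm_star_mul_self, ← map_star, ← map_mul,
      norm_flatHom, ← hz]
    refine ((hψ m _).2).trans ?_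
    rw [CStarRing.norm_star_mul_self, ← CStarRing.norm_self_mul_star]
    have hyy : y * star y = tens (Matrix.single r₀ r₀ 1) (∑ i, c i * star (c i)) := by
      refine CStarMatrix.ext fun a b => ?_
      rw [CStarMatrix.mul_apply, tens_apply]
      rcases eq_or_ne a r₀ with rfl | ha
      · rcases eq_or_ne b r₀ with rfl | hb
        · simp [CStarMatrix.star_apply, hy, Matrix.single]
        · simp [CStarMatrix.star_apply, hy, Matrix.single, hb, Ne.symm hb]
      · simp [CStarMatrix.star_apply, hy, Matrix.single, ha, Ne.symm ha]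
    rw [hyy]
    refine (norm_tens_le _ _).trans ?_
    exact (mul_le_of_le_one_left (norm_nonneg _) (norm_single_le r₀ r₀)).trans hε

end

end Vale.Agent.P095.All
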