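import Vale.Agent.P095.All.Random.Gram

/-!
# P095: the random matrix lemma
-/

namespace Vale.Agent.P095.All

open scoped ComplexOrder Matrix.Norms.L2Operator
open Matrix Vale.Agent.P095.Amen.Random

noncomputable section

/-- The inclusion of the first rows. -/
def rowIncl (L N : ℕ) : Matrix (Fin L) (Fin N) ℂ :=
  Matrix.of fun a r => if (a : ℕ) = r then 1 else 0

theorem rowIncl_star_mul {L N : ℕ} (h : N ≤ L) : (rowIncl L N)ᴴ * rowIncl L N = 1 := by
  ext r r'
  rw [Matrix.mul_apply, Finset.sum_eq_single (⟨r, r.2.trans_le h⟩ : Fin L) (fun a _ ha => by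
    simp [rowIncl, show (a : ℕ) ≠ r from fun e => ha (Fin.ext e)]) (by simp)]
  simp [rowIncl, Matrix.one_apply, Fin.ext_iff]

theorem norm_rowIncl_le {L N : ℕ} (h : N ≤ L) : ‖rowIncl L N‖ ≤ 1 := by
  have e : ‖rowIncl L N‖ * ‖rowIncl L N‖ ≤ 1 := by
    rw [← l2_opNorm_conjTranspose_mul_self, rowIncl_star_mul h]
    rcases isEmpty_or_nonempty (Fin N) with h' | h'
    · simp [Subsingleton.elim (1 : Matrix (Fin N) (Fin N) ℂ) 0]
    · simp
  nlinarith [norm_nonneg (rowIncl L N)]

theorem eS_apply {m α β p o : Type} [Fintype m] [Fintype o] (c : m → Matrix β α ℂ)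
    (z : GIdx m p o → ℝ) (w : β) (e : o) (u : α) (a : p) :
    eS c z (w, e) (u, a) = ∑ i, c i w u * eY z i e a := by
  simp [eS, gS, eY, evalR, MvPolynomial.smul_eq_C_mul]

/-- The model at a point, written with the Gram matrices of the coefficients. -/
theorem eW_gram {m β : Type} [Fintype m] [DecidableEq m] [Fintype β] [DecidableEq β] {k : ℕ}
    {p o : Type} [Fintype p] [DecidableEq p] [Fintype o] [DecidableEq o]
    (d : m → Matrix β (Fin k) ℂ) (z : GIdx m p o → ℝ) (a b : p) (u v : Fin k) :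
    eW d z (u, a) (v, b) = ∑ q : m × m, (((eY z q.1)ᴴ * eY z q.2) a b -
      if q.1 = q.2 ∧ a = b then 1 else 0) * ((d q.1)ᴴ * d q.2) u v := by
  rw [eW_eq, Matrix.sub_apply]
  simp only [sub_mul, Finset.sum_sub_distrib]
  congr 1
  · simp only [Matrix.mul_apply, conjTranspose_apply, Fintype.sum_prod_type, eS_apply, star_sum,
      star_mul', Finset.sum_mul, Finset.mul_sum]
    conv_lhs => enter [2, w, 2, e]; rw [Finset.sum_comm]
    simp only [← Finset.sum_product', Finset.univ_product_univ]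
    exact Fintype.sum_equiv ⟨fun q => (q.2.2.1, q.2.2.2, q.1, q.2.1),
      fun q => (q.2.2.1, q.2.2.2, q.1, q.2.1), fun q => rfl, fun q => rfl⟩ _ _ fun q => by
      simp only [Equiv.coe_fn_mk]; ring
  · simp only [tensorOne, Matrix.of_apply, colSum, Matrix.sum_apply, Fintype.sum_prod_type,
      ite_and, ite_mul, one_mul, zero_mul, Finset.sum_ite_eq, Finset.mem_univ, if_true]
    split_ifs <;> simp

theorem map_map_tens {A B : Type} [NonUnitalCStarAlgebra A] [NonUnitalCStarAlgebra B] {L : ℕ}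
    {κ : Type} [Fintype κ] (f : A →ₗ[ℂ] B) (g : B →ₗ[ℂ] A)
    (T : κ → Matrix (Fin L) (Fin L) ℂ) (h : κ → A) :
    ((∑ q, tens (T q) (h q)).map f).map g = ∑ q, tens (T q) (g (f (h q))) := by
  rw [map_sum_tens, map_sum_tens]

theorem rowMat_apply {A : Type} [NonUnitalCStarAlgebra A] {m L : ℕ} (c : Fin m → A)
    (Y : Fin m → CStarMatrix (Fin L) (Fin L) ℂ) (a b : Fin L) :
    rowMat c Y a b = ∑ i, Y i a b • c i := rfl

theorem diagMat_apply {A : Type} [NonUnitalCStarAlgebra A] {L : ℕ} (z : A) (a b : Fin L) :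
    diagMat z a b = if a = b then z else 0 := rfl

/-- The coefficient of `cᵢ* cₗ` in the error. -/
def errCoef {m L : ℕ} (Y : Fin m → Matrix (Fin L) (Fin L) ℂ) (q : Fin m × Fin m) :
    Matrix (Fin L) (Fin L) ℂ :=
  (Y q.1)ᴴ * Y q.2 - if q.1 = q.2 then 1 else 0

/-- The error as a sum of elementary tensors. -/
theorem err_eq {A : Type} [NonUnitalCStarAlgebra A] {m L : ℕ} (c : Fin m → A)
    (Y : Fin m → Matrix (Fin L) (Fin L) ℂ) :
    star (rowMat c fun i => CStarMatrix.ofMatrix (Y i)) *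
        rowMat c (fun i => CStarMatrix.ofMatrix (Y i)) - diagMat (∑ i, star (c i) * c i) =
      ∑ q : Fin m × Fin m, tens (errCoef Y q) (star (c q.1) * c q.2) := by
  refine CStarMatrix.ext fun a b => ?_
  have hY : ∀ i r u, CStarMatrix.ofMatrix (Y i) r u = Y i r u := fun i r u => rfl
  rw [csum_apply, CStarMatrix.sub_apply, CStarMatrix.mul_apply]
  simp only [tens_apply, errCoef, Matrix.sub_apply, sub_smul, Finset.sum_sub_distrib]
  congr 1
  · simp only [CStarMatrix.star_apply, rowMat_apply, hY, Fintype.sum_prod_type, Matrix.mul_apply,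
      conjTranspose_apply, star_sum, star_smul, Finset.sum_mul, Finset.mul_sum, Finset.sum_smul,
      smul_mul_smul_comm]
    rw [Finset.sum_comm]
    conv_rhs => rw [Finset.sum_comm]
    exact Finset.sum_congr rfl fun i _ => Finset.sum_comm
  · rw [diagMat_apply, Fintype.sum_prod_type]
    have h1 : ∀ i l, (if i = l then (1 : Matrix (Fin L) (Fin L) ℂ) else 0) a b =
        if i = l then (if a = b then (1 : ℂ) else 0) else 0 := fun (i l : Fin m) => by
      split_ifs with e <;> simp_all [Matrix.one_apply]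
    simp only [h1, ite_smul, one_smul, zero_smul, Finset.sum_ite_eq, Finset.mem_univ, if_true]
    rcases eq_or_ne a b with e | e <;> simp [e]

/-- Through the map `ψ` the error is the model at the sample. -/
theorem psi_norm_le {A : Type} [NonUnitalCStarAlgebra A] {m k N L : ℕ}
    (ψ : A →ₗ[ℂ] CStarMatrix (Fin k) (Fin k) ℂ) (h : Fin m × Fin m → A)
    (d : Fin m → Matrix (Fin m × Fin k) (Fin k) ℂ)
    (hd : ∀ q x y, ψ (h q) x y = ((d q.1)ᴴ * d q.2) x y) (z : GIdx (Fin m) (Fin L) (Fin N) → ℝ)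
    (T : Fin m × Fin m → Matrix (Fin L) (Fin L) ℂ)
    (hT : ∀ q a b, T q a b = ((eY z q.1)ᴴ * eY z q.2) a b -
      if q.1 = q.2 ∧ a = b then 1 else 0) :
    ‖(∑ q, tens (T q) (h q)).map ψ‖ ≤ ‖eW d z‖ := by
  rw [map_sum_tens, ← norm_flatHom]
  refine le_trans (le_of_eq ?_) (norm_submatrix_equiv_le (eW d z)
    (Equiv.prodComm (Fin L) (Fin k)))
  congr 1
  refine Matrix.ext fun x y => ?_
  show (∑ q, tens (T q) (ψ (h q))) x.1 y.1 x.2 y.2 = eW d z (x.2, x.1) (y.2, y.1)
  rw [eW_gram, csum_apply, csum_apply]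
  refine Finset.sum_congr rfl fun q _ => ?_
  rw [tens_apply, CStarMatrix.smul_apply, smul_eq_mul, hT, hd]

/-- An approximate identity moves the error little. -/
theorem diff_le {A : Type} [NonUnitalCStarAlgebra A] {κ : Type} [Fintype κ] {L : ℕ}
    (T : κ → Matrix (Fin L) (Fin L) ℂ) (h g : κ → A) {t δ : ℝ} (hT : ∀ q, ‖T q‖ ≤ t)
    (hg : ∀ q, ‖g q - h q‖ ≤ δ) :
    letI : PartialOrder A := CStarAlgebra.spectralOrder A
    letI : StarOrderedRing A := CStarAlgebra.spectralOrderedRing A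
    ‖∑ q, tens (T q) (h q) - ∑ q, tens (T q) (g q)‖ ≤ Fintype.card κ * (t * δ) := by
  let _ : PartialOrder A := CStarAlgebra.spectralOrder A
  have _ : StarOrderedRing A := CStarAlgebra.spectralOrderedRing A
  rw [← Finset.sum_sub_distrib, ← Finset.card_univ, ← nsmul_eq_mul]
  refine (norm_sum_le _ _).trans (Finset.sum_le_card_nsmul _ _ _ fun q _ => ?_)
  have e : tens (T q) (h q) - tens (T q) (g q) = tens (T q) (h q - g q) :=
    CStarMatrix.ext fun a b => by simp [tens_apply, smul_sub]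
  rw [e]
  refine (norm_tens_le _ _).trans (mul_le_mul (hT q) ?_ (norm_nonneg _)
    ((norm_nonneg _).trans (hT q)))
  rw [norm_sub_rev]
  exact hg q

/-- The random matrix lemma. -/
theorem randomRow_of : RandomRowTarget := by
  refine ⟨200, by norm_num, fun A _ hA => ?_⟩
  intro m M c ε hM hε0 hMε hc hε
  let _ : PartialOrder A := CStarAlgebra.spectralOrder A
  have _ : StarOrderedRing A := CStarAlgebra.spectralOrderedRing A
  classical
  set s : ℝ := Real.sqrt ((M : ℝ) * ε) with hs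
  have hs0 : 0 < s := by positivity
  set δ : ℝ := s / ((m : ℝ) ^ 2 * (100 * M + 1) + 1) with hδ
  have hδ0 : 0 < δ := by positivity
  obtain ⟨k, ψ, φ, hψ, hφ, happ⟩ :=
    hA (Finset.univ.image fun q : Fin m × Fin m => star (c q.1) * c q.2) δ hδ0
  obtain ⟨d, hd1, hd2, hd⟩ := exists_matrix_row ψ hψ c hc hε
  obtain ⟨N, hN, z, hzW, hzY⟩ := exists_sample d hd1 hM hε0 hd2 hMε
  have hNL : N ≤ M * N := Nat.le_mul_of_pos_left _ hM
  let Ym : Fin m → Matrix (Fin (M * N)) (Fin (M * N)) ℂ :=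
    fun i => rowIncl (M * N) N * eY z i
  let Y : Fin m → CStarMatrix (Fin (M * N)) (Fin (M * N)) ℂ := fun i => CStarMatrix.ofMatrix (Ym i)
  have hYn : ∀ i, ‖eY z i‖ ≤ 10 * Real.sqrt M := hzY
  have hYm : ∀ i, ‖Ym i‖ ≤ 10 * Real.sqrt M := fun i =>
    (l2_opNorm_mul _ _).trans ((mul_le_of_le_one_left (norm_nonneg _) (norm_rowIncl_le hNL)).trans
      (hYn i))
  have hT : ∀ q, ‖errCoef Ym q‖ ≤ 100 * M + 1 := fun q => by
    refine (norm_sub_le _ _).trans (add_le_add ?_ ?_)
    · refine (l2_opNorm_mul _ _).trans ?_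
      rw [l2_opNorm_conjTranspose]
      refine (mul_le_mul (hYm q.1) (hYm q.2) (norm_nonneg _) (by positivity)).trans (le_of_eq ?_)
      rw [show 10 * Real.sqrt M * (10 * Real.sqrt M) = 100 * (Real.sqrt M * Real.sqrt M) by ring,
        Real.mul_self_sqrt (Nat.cast_nonneg _)]
    · split_ifs
      · have : Nonempty (Fin (M * N)) := ⟨⟨0, by positivity⟩⟩
        simp
      · simp
  have hTY : ∀ q a b, errCoef Ym q a b = ((eY z q.1)ᴴ * eY z q.2) a b -
      if q.1 = q.2 ∧ a = b then 1 else 0 := fun q a b => by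
    simp only [errCoef, Ym, conjTranspose_mul, Matrix.sub_apply]
    rw [Matrix.mul_assoc, ← Matrix.mul_assoc (rowIncl (M * N) N)ᴴ, rowIncl_star_mul hNL,
      Matrix.one_mul]
    congr 1
    rcases eq_or_ne q.1 q.2 with e | e <;> simp [e, Matrix.one_apply]
  refine ⟨N, Y, hN, fun i a b ha => ?_, fun i => ?_, ?_⟩
  · show (rowIncl (M * N) N * eY z i) a b = 0
    rw [Matrix.mul_apply]
    exact Finset.sum_eq_zero fun r _ => by
      simp [rowIncl, show (a : ℕ) ≠ r by omega]
  · refine (le_of_eq (norm_cstarMatrix_eq (Ym i))).trans ((hYm i).trans ?_)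
    gcongr
    norm_num
  rw [err_eq c Ym]
  have hψx := (psi_norm_le ψ (fun q => star (c q.1) * c q.2) d (fun q => hd q.1 q.2) z
    (errCoef Ym) hTY).trans hzW
  have hdiff := diff_le (errCoef Ym) (fun q : Fin m × Fin m => star (c q.1) * c q.2)
    (fun q => φ (ψ (star (c q.1) * c q.2))) hT
    (fun q => happ _ (Finset.mem_image.2 ⟨q, Finset.mem_univ _, rfl⟩))
  rw [← map_map_tens ψ φ, Fintype.card_prod, Fintype.card_fin, Nat.cast_mul] at hdiff
  have hsmall : (m : ℝ) * m * ((100 * M + 1) * δ) ≤ s := by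
    calc (m : ℝ) * m * ((100 * M + 1) * δ) ≤ ((m : ℝ) ^ 2 * (100 * M + 1) + 1) * δ := by
          rw [← mul_assoc, sq]
          exact mul_le_mul_of_nonneg_right (le_add_of_nonneg_right zero_le_one) hδ0.le
      _ = s := by rw [hδ]; field_simp
  generalize ∑ q, tens (errCoef Ym q) (star (c q.1) * c q.2) = x at hψx hdiff ⊢
  calc ‖x‖ ≤ ‖(x.map ψ).map φ‖ + ‖x - (x.map ψ).map φ‖ := by
        refine le_trans (le_of_eq (congrArg _ ?_)) (norm_add_le _ _)
        abel
    _ ≤ 96 * s + s := add_le_add (((hφ _ _).2).trans hψx) (hdiff.trans hsmall)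
    _ ≤ 200 * s := by linarith

end

end Vale.Agent.P095.All
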