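import Vale.Agent.P095.All.Random.Defs
import Vale.Agent.P095.Amen.Random.MatNorm

/-!
# P095: matrices over an algebra built from scalar matrices
-/

namespace Vale.Agent.P095.All

open scoped ComplexOrder Matrix.Norms.L2Operator
open Vale.Agent.P095.Amen.Random (norm_le_of_sum_sq sum_sq_mulVec_le)

noncomputable section

/-- `T ⊗ g`. -/
def tens {A : Type} [NonUnitalCStarAlgebra A] {L : ℕ} (T : Matrix (Fin L) (Fin L) ℂ) (g : A) :
    CStarMatrix (Fin L) (Fin L) A :=
  CStarMatrix.ofMatrix fun a b => T a b • g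

theorem csum_apply {R : Type} [AddCommMonoid R] {I J κ : Type} (s : Finset κ)
    (f : κ → CStarMatrix I J R) (a : I) (b : J) : (∑ k ∈ s, f k) a b = ∑ k ∈ s, f k a b :=
  Matrix.sum_apply a b s fun k => CStarMatrix.ofMatrix.symm (f k)

/-- The entries of a scalar matrix inside a unital algebra. -/
def scalarHom (U : Type) [CStarAlgebra U] (L : ℕ) :
    Matrix (Fin L) (Fin L) ℂ →⋆ₙₐ[ℂ] CStarMatrix (Fin L) (Fin L) U where
  toFun T := CStarMatrix.ofMatrix (T.map (algebraMap ℂ U))
  map_smul' r T := by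
    ext a b
    show algebraMap ℂ U (r * T a b) = r • algebraMap ℂ U (T a b)
    rw [map_mul, Algebra.smul_def]
  map_zero' := by ext a b; simp
  map_add' T T' := by ext a b; simp
  map_mul' T T' := by ext a b; simp [CStarMatrix.mul_apply, Matrix.mul_apply]
  map_star' T := by ext a b; simpa [CStarMatrix.star_apply] using algebraMap_star_comm (T b a)

/-- Diagonal matrices. -/
def diagHom (U : Type) [CStarAlgebra U] (L : ℕ) :
    U →⋆ₙₐ[ℂ] CStarMatrix (Fin L) (Fin L) U where
  toFun g := CStarMatrix.ofMatrix (Matrix.diagonal fun _ => g)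
  map_smul' r g := by
    ext a b
    rcases eq_or_ne a b with rfl | h <;> simp [*]
  map_zero' := by ext a b; simp
  map_add' g g' := by
    ext a b
    rcases eq_or_ne a b with rfl | h <;> simp [*]
  map_mul' g g' := by
    ext a b
    rcases eq_or_ne a b with rfl | h <;> simp [CStarMatrix.mul_apply, Matrix.diagonal_apply, *]
  map_star' g := by
    ext a b
    rcases eq_or_ne a b with rfl | h
    · simp [CStarMatrix.star_apply]
    · simp [CStarMatrix.star_apply, h, Ne.symm h]

variable {A : Type} [NonUnitalCStarAlgebra A]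

theorem tens_apply {L : ℕ} (T : Matrix (Fin L) (Fin L) ℂ) (g : A) (a b : Fin L) :
    tens T g a b = T a b • g := rfl

/-- An elementary tensor is bounded by the product of the norms. -/
theorem norm_tens_le {L : ℕ} (T : Matrix (Fin L) (Fin L) ℂ) (g : A) :
    letI : PartialOrder A := CStarAlgebra.spectralOrder A
    letI : StarOrderedRing A := CStarAlgebra.spectralOrderedRing A
    ‖tens T g‖ ≤ ‖T‖ * ‖g‖ := by
  let _ : PartialOrder A := CStarAlgebra.spectralOrder A
  have _ : StarOrderedRing A := CStarAlgebra.spectralOrderedRing A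
  let _ : PartialOrder (Unitization ℂ A) := CStarAlgebra.spectralOrder _
  have _ : StarOrderedRing (Unitization ℂ A) := CStarAlgebra.spectralOrderedRing _
  let j : CStarMatrix (Fin L) (Fin L) A →⋆ₙₐ[ℂ] CStarMatrix (Fin L) (Fin L) (Unitization ℂ A) :=
    CStarMatrix.mapₙₐ (Unitization.inrNonUnitalStarAlgHom ℂ A)
  have hj : Function.Injective j := fun x y h => CStarMatrix.ext fun a b =>
    Unitization.inr_injective (R := ℂ) (congrFun (congrFun h a) b)
  have he : j (tens T g) = scalarHom (Unitization ℂ A) L T * diagHom (Unitization ℂ A) L g := by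
    refine CStarMatrix.ext fun a b => ?_
    simp [j, tens_apply, scalarHom, diagHom, CStarMatrix.mul_apply, Matrix.diagonal_apply,
      CStarMatrix.mapₗ, CStarMatrix.map_apply]
    exact Algebra.smul_def _ _
  rw [← NonUnitalStarAlgHom.norm_map j hj, he]
  refine (norm_mul_le _ _).trans (mul_le_mul (NonUnitalStarAlgHom.norm_apply_le _ _)
    ((NonUnitalStarAlgHom.norm_apply_le _ _).trans (le_of_eq (Unitization.norm_inr g)))
    (norm_nonneg _) (norm_nonneg _))

theorem map_sum_tens {B : Type} [NonUnitalCStarAlgebra B] {L : ℕ} {κ : Type} [Fintype κ]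
    (f : A →ₗ[ℂ] B) (T : κ → Matrix (Fin L) (Fin L) ℂ) (g : κ → A) :
    (∑ k, tens (T k) (g k)).map f = ∑ k, tens (T k) (f (g k)) := by
  ext a b
  simp [tens_apply, CStarMatrix.map_apply, csum_apply]

/-- Matrices of matrices as one matrix. -/
def flatHom (n k : ℕ) :
    CStarMatrix (Fin n) (Fin n) (CStarMatrix (Fin k) (Fin k) ℂ) →⋆ₙₐ[ℂ]
      Matrix (Fin n × Fin k) (Fin n × Fin k) ℂ where
  toFun X := Matrix.of fun u v => X u.1 v.1 u.2 v.2
  map_smul' r X := by ext u v; simp
  map_zero' := by ext u v; simp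
  map_add' X Y := by ext u v; simp
  map_mul' X Y := by
    ext u v
    simp [Matrix.mul_apply, CStarMatrix.mul_apply, Fintype.sum_prod_type, csum_apply]
  map_star' X := by ext u v; simp [CStarMatrix.star_apply]

theorem flatHom_injective (n k : ℕ) : Function.Injective (flatHom n k) := fun _ _ h =>
  CStarMatrix.ext fun a b => CStarMatrix.ext fun x y => congrFun (congrFun h (a, x)) (b, y)

theorem norm_flatHom {n k : ℕ}
    (X : CStarMatrix (Fin n) (Fin n) (CStarMatrix (Fin k) (Fin k) ℂ)) : ‖flatHom n k X‖ = ‖X‖ :=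
  NonUnitalStarAlgHom.norm_map _ (flatHom_injective n k) X

theorem norm_cstarMatrix_eq {L : ℕ} (T : Matrix (Fin L) (Fin L) ℂ) :
    ‖CStarMatrix.ofMatrix T‖ = ‖T‖ := by
  let φ : Matrix (Fin L) (Fin L) ℂ →⋆ₙₐ[ℂ] CStarMatrix (Fin L) (Fin L) ℂ :=
    { toFun := fun X => CStarMatrix.ofMatrix X
      map_smul' := fun _ _ => rfl
      map_zero' := rfl
      map_add' := fun _ _ => rfl
      map_mul' := fun _ _ => rfl
      map_star' := fun _ => rfl }
  exact NonUnitalStarAlgHom.norm_map (A := Matrix (Fin L) (Fin L) ℂ)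
    (B := CStarMatrix (Fin L) (Fin L) ℂ) φ (fun _ _ h => h) T

/-- Renaming indices does not increase the norm. -/
theorem norm_submatrix_equiv_le {I J : Type} [Fintype I] [Fintype J] [DecidableEq I]
    [DecidableEq J] (X : Matrix J J ℂ) (e : I ≃ J) : ‖X.submatrix e e‖ ≤ ‖X‖ := by
  refine norm_le_of_sum_sq (norm_nonneg _) fun v => ?_
  simp only [Matrix.submatrix_mulVec_equiv, Function.comp_apply]
  refine (le_of_eq (Equiv.sum_comp e fun j => ‖(X.mulVec (v ∘ e.symm)) j‖ ^ 2)).trans ?_
  refine (sum_sq_mulVec_le X _).trans (le_of_eq ?_)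
  congr 1
  exact Equiv.sum_comp e.symm fun i => ‖v i‖ ^ 2

end

end Vale.Agent.P095.All
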